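import Vale.Agent.P307.R2.H773.RichWf
import Vale.Agent.P307.R2.H806.Coheir

set_option linter.unusedSectionVars false

universe u v w

open FirstOrder Cardinal Set

namespace Vale.Agent.P307.R2.H773

open Vale.Agent.P307 Vale.Agent.P307.H304 Vale.Agent.P307.R2.H287 Vale.Agent.P307.R2.H1
  Vale.Agent.P307.R2.H806 Language.Structure Language.Substructure

/-! ### Growth functions and closed points -/

/-- Growth of supports. -/
theorem exists_growth {θ : Cardinal.{u}} (hθ : ℵ₀ ≤ θ) {J N : Type u} (supp : N → Finset J)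
    (R : SuccTy θ → Set N) (hR : ∀ i, #(R i) ≤ θ) (A : SuccTy θ → Set J) (hA : Monotone A) :
    ∃ g : SuccTy θ → SuccTy θ, ∀ i, ∀ x ∈ R i, ∀ q ∈ supp x, q ∈ (⋃ j, A j) → q ∈ A (g i) := by
  classical
  have h1 : ∀ q : J, ∃ j : SuccTy θ, q ∈ (⋃ j, A j) → q ∈ A j := by
    intro q
    by_cases h : q ∈ ⋃ j, A j
    · obtain ⟨j, hj⟩ := mem_iUnion.1 h
      exact ⟨j, fun _ => hj⟩
    · obtain ⟨j, -⟩ := exists_gt_of_small hθ (∅ : Set (SuccTy θ)) (by simp)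
      exact ⟨j, fun h' => absurd h' h⟩
  choose j hj using h1
  have h2 : ∀ i, ∃ b : SuccTy θ, ∀ y ∈ j '' (⋃ x : R i, (supp x.1 : Set J)), y < b := by
    intro i
    refine exists_gt_of_small hθ _ (mk_image_le.trans (mk_iUnion_le_of hθ (hR i) _ fun x => ?_))
    exact (lt_aleph0_of_finite _).le.trans hθ
  choose g hg using h2
  refine ⟨g, fun i x hx q hq hqA => hA (hg i (j q) ⟨q, ?_, rfl⟩).le (hj q hqA)⟩
  exact mem_iUnion.2 ⟨⟨x, hx⟩, hq⟩

theorem exists_gt_regular {μ : Cardinal.{u}} (hμ : μ.IsRegular) (s : Set μ.ord.ToType)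
    (hs : #s < μ) : ∃ x, ∀ y ∈ s, y < x := by
  rw [← not_isCofinal_iff]
  intro h
  have h1 := Order.cof_le h
  rw [Ordinal.cof_toType, hμ.cof_ord] at h1
  exact absurd h1 (not_le.2 hs)

/-- Points of given cofinality which are closed under a function. -/
theorem exists_closed_cof {θ μ : Cardinal.{u}} (hθ : ℵ₀ ≤ θ) (hμ : μ.IsRegular) (hμθ : μ ≤ θ)
    (g : SuccTy θ → SuccTy θ) (i₀ : SuccTy θ) : ∃ δ, i₀ < δ ∧ (∀ i < δ, g i < δ) ∧
      (∀ s : Set (SuccTy θ), (∀ i ∈ s, i < δ) → #s < μ → ∃ j < δ, ∀ i ∈ s, i < j) ∧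
      ∃ s : Set (SuccTy θ), #s ≤ μ ∧ (∀ i ∈ s, i < δ) ∧ ∀ i < δ, ∃ j ∈ s, i < j := by
  classical
  let X : Type u := μ.ord.ToType
  let x : X → SuccTy θ := WellFounded.fix (r := (· < ·)) wellFounded_lt (fun j rec =>
    if hx : ∃ z, i₀ < z ∧ ∀ j' : Iio j, rec j'.1 j'.2 < z ∧ ∀ i ≤ rec j'.1 j'.2, g i < z then
      hx.choose else i₀)
  have hx : ∀ j, x j = if hx : ∃ z, i₀ < z ∧ ∀ j' : Iio j, x j'.1 < z ∧ ∀ i ≤ x j'.1, g i < z then
      hx.choose else i₀ := fun j => WellFounded.fix_eq _ _ j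
  have key : ∀ j, i₀ < x j ∧ ∀ j' : Iio j, x j'.1 < x j ∧ ∀ i ≤ x j'.1, g i < x j := by
    intro j
    have hex : ∃ z, i₀ < z ∧ ∀ j' : Iio j, x j'.1 < z ∧ ∀ i ≤ x j'.1, g i < z := by
      have hj : #(Iio j) ≤ θ := by
        have h1 : #(Iio j) < μ := by
          have h2 : #X = μ := by simp [X]
          have h3 := mk_Iio_lt j (by
            change (#X).ord = _
            rw [h2]
            exact (Ordinal.type_toType _).symm)
          rw [h2] at h3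
          exact h3
        exact h1.le.trans hμθ
      have hI : ∀ j' : Iio j, #(insert (x j'.1) (g '' Iic (x j'.1)) : Set (SuccTy θ)) ≤ θ := by
        intro j'
        refine mk_insert_le.trans (add_le_of_le hθ (mk_image_le.trans ?_)
          (one_le_aleph0.trans hθ))
        have h2 : Iic (x j'.1) ⊆ insert (x j'.1) (Iio (x j'.1)) := fun y hy =>
          (le_iff_eq_or_lt.1 hy)
        exact (mk_le_mk_of_subset h2).trans (mk_insert_le.trans (add_le_of_le hθ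
          (mk_Iio_succTy _) (one_le_aleph0.trans hθ)))
      obtain ⟨z, hz⟩ := exists_gt_of_small hθ (insert i₀ (⋃ j' : Iio j,
        (insert (x j'.1) (g '' Iic (x j'.1)) : Set (SuccTy θ))))
        (mk_insert_le.trans (add_le_of_le hθ (mk_iUnion_le_of hθ hj _ hI)
          (one_le_aleph0.trans hθ)))
      refine ⟨z, hz _ (Or.inl rfl), fun j' => ⟨hz _ (Or.inr (mem_iUnion.2 ⟨j', Or.inl rfl⟩)),
        fun i hi => hz _ (Or.inr (mem_iUnion.2 ⟨j', Or.inr ⟨i, hi, rfl⟩⟩))⟩⟩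
    have h1 : x j = hex.choose := (hx j).trans (dif_pos hex)
    rw [h1]
    exact hex.choose_spec
  have hX : #X ≤ θ := by
    have h1 : #X = μ := by simp [X]
    rw [h1]
    exact hμθ
  obtain ⟨b, hb⟩ := exists_gt_of_small hθ (range x) (mk_range_le.trans hX)
  obtain ⟨δ, hδ, hmin⟩ := WellFounded.has_min (wellFounded_lt (α := SuccTy θ))
    {y | ∀ j, x j < y} ⟨b, fun j => hb _ ⟨j, rfl⟩⟩
  have hle : ∀ i < δ, ∃ j, i ≤ x j := by
    intro i hi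
    by_contra hcon
    push Not at hcon
    exact hmin i hcon hi
  have hup : ∀ j : X, ∃ j', j < j' := by
    intro j
    obtain ⟨j', hj'⟩ := exists_gt_regular hμ {j} (by
      rw [mk_singleton]
      exact one_lt_aleph0.trans_le hμ.aleph0_le)
    exact ⟨j', hj' j rfl⟩
  obtain ⟨j₀, -⟩ := exists_gt_regular hμ (∅ : Set X) (by simpa using hμ.pos)
  refine ⟨δ, (key j₀).1.trans (hδ j₀), ?_, ?_, range x, mk_range_le.trans (by simp [X]), ?_, ?_⟩
  · intro i hi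
    obtain ⟨j, hj⟩ := hle i hi
    obtain ⟨j', hj'⟩ := hup j
    exact (((key j').2 ⟨j, hj'⟩).2 i hj).trans (hδ j')
  · intro s hs hsμ
    choose f hf using fun i : s => hle i.1 (hs i.1 i.2)
    obtain ⟨j', hj'⟩ := exists_gt_regular hμ (range f) (mk_range_le.trans_lt hsμ)
    exact ⟨x j', hδ j', fun i hi => (hf ⟨i, hi⟩).trans_lt
      ((key j').2 ⟨f ⟨i, hi⟩, hj' _ ⟨⟨i, hi⟩, rfl⟩⟩).1⟩
  · rintro _ ⟨j, rfl⟩
    exact hδ j
  · intro i hi
    obtain ⟨j, hj⟩ := hle i hi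
    obtain ⟨j', hj'⟩ := hup j
    exact ⟨x j', ⟨j', rfl⟩, hj.trans_lt ((key j').2 ⟨j, hj'⟩).1⟩

/-! ### Shifts -/

variable {L : Language.{u, u}} {K : AEC L} {ℓ : Cardinal.{u}} {κf : Cardinal.{u} → Cardinal.{u}}

theorem exists_supp_mem {L₁ : Language.{u, u}} {N I : Type u} [L₁.Structure N] {c : I → N}
    {W : Set I} {x : N} (hx : x ∈ closure L₁ (c '' W)) :
    ∃ (w : Finset I) (_ : (w : Set I) ⊆ W) (t : L₁.Term w), t.realize (fun d : w => c d) = x := by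
  classical
  have h0 : c '' W = range fun q : W => c q := by
    ext y
    simp
  have h1 : x ∈ closure L₁ (range fun q : W => c q) := by rw [← h0]; exact hx
  obtain ⟨t, rfl⟩ := Gr.mem_closure_range.1 h1
  refine ⟨t.varFinset.image Subtype.val, ?_, (t.restrictVar fun d => d).relabel
    fun d : t.varFinset => ⟨d.1.1, Finset.mem_image_of_mem _ d.2⟩, ?_⟩
  · intro y hy
    simp only [Finset.coe_image, mem_image] at hy
    obtain ⟨z, -, rfl⟩ := hy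
    exact z.2
  · rw [Language.Term.realize_relabel]
    exact Language.Term.realize_restrictVar (v := fun d : t.varFinset => c d.1.1)
      (fun q : W => c q) fun _ => rfl

theorem realize_mem_cl {L₁ : Language.{u, u}} {N I : Type u} [L₁.Structure N] {c : I → N}
    {W : Set I} {Q : Type w} (t : L₁.Term Q) (v : Q → I) (hv : ∀ q, v q ∈ W) :
    t.realize (fun q => c (v q)) ∈ closure L₁ (c '' W) := by
  induction t with
  | var q => exact subset_closure ⟨v q, hv q, rfl⟩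
  | func f ts ih => exact (closure L₁ (c '' W)).fun_mem f _ ih

theorem mk_iUnion_finset_lt {μ : Cardinal.{u}} (hμ : ℵ₀ ≤ μ) {ι J : Type u} (hι : #ι < μ)
    (w : ι → Finset J) : #(⋃ i, (w i : Set J)) < μ := by
  rcases lt_or_ge #ι ℵ₀ with h | h
  · have : Finite ι := lt_aleph0_iff_finite.1 h
    have h1 : (⋃ i, (w i : Set J)).Finite := finite_iUnion fun i => (w i).finite_toSet
    have := h1.to_subtype
    exact (lt_aleph0_of_finite _).trans_le hμ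
  · refine (mk_iUnion_le_of h le_rfl _ fun i => ?_).trans_lt hι
    exact (lt_aleph0_of_finite _).le.trans h

/-- Moving supports. The types are compared at a level `ν` which may be larger than the length
of the tuples. -/
theorem shift_lt (hK : K.IsLS ℓ) (hunb : ∀ ν, ν < κf ν ∧ K.CategoricalIn (κf ν))
    {μ ν : Cardinal.{u}} (hμ : ℵ₀ ≤ μ) (hμν : μ ≤ Order.succ ν) (hℓ : ℓ ≤ ν) {t : Tpl K ℓ}
    {J : Type u} [LinearOrder J] (E : EM t J) (hE : thr κf ν ≤ #E.N) {W₁ W₂ T : Set J}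
    {ι ζ : Type u} (hι : #ι < μ) (hζ : #ζ < μ) (r : ι → E.N) (m : ζ → E.N)
    (hr : ∀ i, r i ∈ closure (exLang L t.Λ) (E.c '' W₁))
    (hm : ∀ z, m z ∈ closure (exLang L t.Λ) (E.c '' W₂))
    (hT : ∀ V₁ ⊆ W₁, #V₁ < μ → ∀ V₂ ⊆ W₂, #V₂ < μ → ∃ h : J → J, (∀ x ∈ V₁, h x ∈ T) ∧
      (∀ x ∈ V₂, h x = x) ∧ ∀ x ∈ V₁ ∪ V₂, ∀ y ∈ V₁ ∪ V₂, x < y → h x < h y) :
    ∃ r' : ι → E.N, (∀ i, r' i ∈ closure (exLang L t.Λ) (E.c '' T)) ∧
      EqS L ν (Sum.elim r' m) (Sum.elim r m) := by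
  classical
  choose w₁ hw₁ s₁ hs₁ using fun i => exists_supp_mem (hr i)
  choose w₂ hw₂ s₂ hs₂ using fun z => exists_supp_mem (hm z)
  let V₁ : Set J := ⋃ i, (w₁ i : Set J)
  let V₂ : Set J := ⋃ i, (w₂ i : Set J)
  have hV₁ : #V₁ < μ := mk_iUnion_finset_lt hμ hι w₁
  have hV₂ : #V₂ < μ := mk_iUnion_finset_lt hμ hζ w₂
  obtain ⟨h, hh1, hh2, hh3⟩ := hT V₁ (iUnion_subset hw₁) hV₁ V₂ (iUnion_subset hw₂) hV₂
  have hm1 : ∀ i (q : w₁ i), q.1 ∈ V₁ := fun i q => mem_iUnion.2 ⟨i, q.2⟩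
  have hm2 : ∀ i (q : w₂ i), q.1 ∈ V₂ := fun i q => mem_iUnion.2 ⟨i, q.2⟩
  refine ⟨fun i => (s₁ i).realize fun v : w₁ i => E.c (h v), fun i => ?_, ?_⟩
  · exact realize_mem_cl (s₁ i) (fun v : w₁ i => h v) fun v => hh1 v.1 (hm1 i v)
  · let Q : Type u := V₁ ⊕ V₂
    have hQ : #Q ≤ ν := by
      have h1 : #Q < μ := by
        change #(_ ⊕ _) < μ
        rw [mk_sum, lift_id, lift_id]
        exact add_lt_of_lt hμ hV₁ hV₂
      exact Order.lt_succ_iff.1 (h1.trans_le hμν)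
    let w : Q → J := Sum.elim (fun v => v.1) fun v => v.1
    have hw : ∀ p, w p ∈ V₁ ∪ V₂ := by
      rintro (p | p)
      · exact Or.inl p.2
      · exact Or.inr p.2
    have hιζ : #(ι ⊕ ζ) ≤ ν := by
      have h1 : #(ι ⊕ ζ) < μ := by
        rw [mk_sum, lift_id, lift_id]
        exact add_lt_of_lt hμ hι hζ
      exact Order.lt_succ_iff.1 (h1.trans_le hμν)
    let tm : ι ⊕ ζ → (exLang L t.Λ).Term Q := Sum.elim
      (fun i => (s₁ i).relabel fun q => Sum.inl ⟨q.1, hm1 i q⟩)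
      (fun z => (s₂ z).relabel fun q => Sum.inr ⟨q.1, hm2 z q⟩)
    have h1 := eqS_pat hK hunb hℓ E E hE hE hQ (fun p => h (w p)) w (fun p q => by
      rcases lt_trichotomy (w p) (w q) with h4 | h4 | h4
      · exact iff_of_true (hh3 _ (hw p) _ (hw q) h4).le h4.le
      · exact iff_of_true (congrArg h h4).le h4.le
      · exact iff_of_false (hh3 _ (hw q) _ (hw p) h4).not_ge h4.not_ge) hιζ tm
    have h2 : (fun i => (tm i).realize fun p => E.c (h (w p))) =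
        Sum.elim (fun i => (s₁ i).realize fun v : w₁ i => E.c (h v)) m := by
      funext i
      rcases i with i | z
      · change ((s₁ i).relabel _).realize _ = _
        rw [Language.Term.realize_relabel]
        rfl
      · change ((s₂ z).relabel _).realize _ = m z
        rw [Language.Term.realize_relabel, ← hs₂ z]
        congr 1
        funext v
        exact congrArg E.c (hh2 v.1 (hm2 z v))
    have h3 : (fun i => (tm i).realize fun p => E.c (w p)) = Sum.elim r m := by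
      funext i
      rcases i with i | z
      · change ((s₁ i).relabel _).realize _ = r i
        rw [Language.Term.realize_relabel, ← hs₁ i]
        rfl
      · change ((s₂ z).relabel _).realize _ = m z
        rw [Language.Term.realize_relabel, ← hs₂ z]
        rfl
    rw [h2, h3] at h1
    exact h1

/-- The shift of the new points into the tail, as a map of orders. -/
theorem exists_shift_map {σ : Cardinal.{u}} {J : Type u} [LinearOrder J] {W W₀ F : Set J}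
    (hF : IsTail σ F) (hJ : IsCutExt W F) (hF₀ : F ⊆ W₀) (hσ : ℵ₀ ≤ σ) {V₁ V₂ : Set J}
    (h1 : #V₁ ≤ σ) (h2 : #V₂ ≤ σ) (hV₁ : V₁ ∩ W ⊆ W₀) (hV₂ : V₂ ⊆ W) :
    ∃ h : J → J, (∀ x ∈ V₁, h x ∈ W₀) ∧ (∀ x ∈ V₂, h x = x) ∧
      ∀ x ∈ V₁ ∪ V₂, ∀ y ∈ V₁ ∪ V₂, x < y → h x < h y := by
  classical
  obtain ⟨w', a1, a2, a3⟩ := exists_shift hF hJ hF₀ h2 h1 hσ (fun p : V₂ => p.1)
    (fun q : V₁ => q.1) (fun p => hV₂ p.2) (fun q hq => hV₁ ⟨q.2, hq⟩)
  let h : J → J := fun x => if hx : x ∈ V₁ then w' ⟨x, hx⟩ else x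
  have hh1 : ∀ x (hx : x ∈ V₁), h x = w' ⟨x, hx⟩ := fun x hx => dif_pos hx
  have hh2 : ∀ x ∈ V₂, h x = x := by
    intro x hx
    by_cases hx1 : x ∈ V₁
    · rw [hh1 x hx1]
      exact a2 _ (hV₂ hx)
    · exact dif_neg hx1
  refine ⟨h, fun x hx => by rw [hh1 x hx]; exact a1 _, hh2, ?_⟩
  have hrep : ∀ x ∈ V₁ ∪ V₂, ∃ p : V₂ ⊕ V₁, Sum.elim (fun p : V₂ => p.1)
      (fun q : V₁ => q.1) p = x ∧ Sum.elim (fun p : V₂ => p.1) w' p = h x := by
    rintro x (hx | hx)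
    · exact ⟨Sum.inr ⟨x, hx⟩, rfl, (hh1 x hx).symm⟩
    · exact ⟨Sum.inl ⟨x, hx⟩, rfl, (hh2 x hx).symm⟩
  intro x hx y hy hxy
  obtain ⟨p, hp1, hp2⟩ := hrep x hx
  obtain ⟨q, hq1, hq2⟩ := hrep y hy
  rw [← hp2, ← hq2, ← not_le, ← a3, hp1, hq1, not_le]
  exact hxy

/-- **Free position**, two levels: tuples of length `≤ σ`, types at level `ν ≥ σ`. -/
theorem coheir_tail (hK : K.IsLS ℓ) (hunb : ∀ ν, ν < κf ν ∧ K.CategoricalIn (κf ν))
    {σ ν : Cardinal.{u}} (hσ : ℵ₀ ≤ σ) (hσν : σ ≤ ν) (hℓ : ℓ ≤ ν) {t : Tpl K ℓ} {J : Type u}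
    [LinearOrder J] (E : EM t J) (hE : thr κf ν ≤ #E.N) {W W₀ F : Set J} (hF : IsTail σ F)
    (hJ : IsCutExt W F) (hF₀ : F ⊆ W₀) {T : Set J} (hT : T ∩ W ⊆ W₀) {ι ζ : Type u}
    (hι : #ι ≤ σ) (hζ : #ζ ≤ σ) (r : ι → E.N) (m : ζ → E.N)
    (hr : ∀ i, r i ∈ closure (exLang L t.Λ) (E.c '' T))
    (hm : ∀ z, m z ∈ closure (exLang L t.Λ) (E.c '' W)) :
    ∃ r' : ι → E.N, (∀ i, r' i ∈ closure (exLang L t.Λ) (E.c '' W₀)) ∧
      EqS L ν (Sum.elim r' m) (Sum.elim r m) := by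
  refine shift_lt hK hunb (μ := Order.succ σ) (hσ.trans (Order.le_succ σ))
    (Order.succ_le_succ hσν) hℓ E hE (Order.lt_succ_of_le hι) (Order.lt_succ_of_le hζ) r m hr hm ?_
  intro V₁ hV₁ hV₁σ V₂ hV₂ hV₂σ
  exact exists_shift_map hF hJ hF₀ hσ (Order.lt_succ_iff.1 hV₁σ) (Order.lt_succ_iff.1 hV₂σ)
    ((inter_subset_inter_left _ hV₁).trans hT) hV₂

/-- **CP principle** (club form). `J` is `W = ⋃ A j ∪ F` with a well ordered set in the cut before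
the tail `F`; `R` is a family of subsets of `EM(J)` of size at most `θ`, indexed by `θ⁺`. For every
`δ` closed under `g`, the tuples of `⋃_{i < δ} R i` are in free position over
`EM(⋃_{i < δ} A i ∪ F)` with respect to `EM(W)`. -/
theorem cp (hK : K.IsLS ℓ) (hunb : ∀ ν, ν < κf ν ∧ K.CategoricalIn (κf ν))
    {θ ν : Cardinal.{u}} (hθ : ℵ₀ ≤ θ) (hθν : θ ≤ ν) (hℓ : ℓ ≤ ν) {t : Tpl K ℓ} {J : Type u}
    [LinearOrder J] (E : EM t J) (hE : thr κf ν ≤ #E.N) {A : SuccTy θ → Set J} (hA : Monotone A)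
    {W F : Set J} (hF : IsTail θ F) (hJ : IsCutExt W F) (hW : W = (⋃ j, A j) ∪ F)
    (R : SuccTy θ → Set E.N) (hR : ∀ i, #(R i) ≤ θ) :
    ∃ g : SuccTy θ → SuccTy θ, ∀ δ, (∀ i < δ, g i < δ) → ∀ {ι ζ : Type u}, #ι ≤ θ → #ζ ≤ θ →
      ∀ (r : ι → E.N) (m : ζ → E.N), (∀ x, ∃ i < δ, r x ∈ R i) →
      (∀ z, m z ∈ closure (exLang L t.Λ) (E.c '' W)) →
      ∃ r' : ι → E.N, (∀ x, r' x ∈ closure (exLang L t.Λ) (E.c '' ((⋃ i : Iio δ, A i) ∪ F))) ∧
        EqS L ν (Sum.elim r' m) (Sum.elim r m) := by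
  classical
  choose supp s hs using fun x : E.N => exists_finset_term E.top x
  obtain ⟨g, hg⟩ := exists_growth hθ supp R hR A hA
  refine ⟨g, fun δ hδ ι ζ hι hζ r m hr hm => ?_⟩
  refine coheir_tail hK hunb hθ hθν hℓ E hE hF hJ (T := ⋃ x, (supp (r x) : Set J))
    subset_union_right ?_ hι hζ r m ?_ hm
  · rintro q ⟨hq, hqW⟩
    obtain ⟨x, hx⟩ := mem_iUnion.1 hq
    rw [hW] at hqW
    rcases hqW with h | h
    · obtain ⟨i, hi, hri⟩ := hr x
      exact Or.inl (mem_iUnion.2 ⟨⟨g i, hδ i hi⟩, hg i _ hri q hx h⟩)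
    · exact Or.inr h
  · intro x
    rw [← hs (r x)]
    exact realize_mem_cl (s (r x)) (fun d : supp (r x) => d.1) fun d =>
      mem_iUnion.2 ⟨x, d.2⟩

/-- **Finite tuples** (continuity). For a finite tuple there is an index `i` such that it is in free
position over `EM(A i ∪ F)` with respect to `EM(⋃ A j ∪ F)`. -/
theorem cp_fin (hK : K.IsLS ℓ) (hunb : ∀ ν, ν < κf ν ∧ K.CategoricalIn (κf ν))
    {σ ν : Cardinal.{u}} (hσ : ℵ₀ ≤ σ) (hσν : σ ≤ ν) (hℓ : ℓ ≤ ν) {t : Tpl K ℓ} {J : Type u}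
    [LinearOrder J] (E : EM t J) (hE : thr κf ν ≤ #E.N) {X : Type w} [LinearOrder X] [Nonempty X]
    {A : X → Set J} (hA : Monotone A) {W F : Set J} (hF : IsTail σ F) (hJ : IsCutExt W F)
    (hW : W = (⋃ j, A j) ∪ F) {ι : Type u} [Finite ι] (r : ι → E.N) :
    ∃ i, ∀ {ζ : Type u}, #ζ ≤ σ → ∀ m : ζ → E.N,
      (∀ z, m z ∈ closure (exLang L t.Λ) (E.c '' W)) →
      ∃ r' : ι → E.N, (∀ x, r' x ∈ closure (exLang L t.Λ) (E.c '' (A i ∪ F))) ∧
        EqS L ν (Sum.elim r' m) (Sum.elim r m) := by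
  classical
  choose supp s hs using fun x : E.N => exists_finset_term E.top x
  let T : Set J := ⋃ x, (supp (r x) : Set J)
  have hT : T.Finite := finite_iUnion fun i => (supp (r i)).finite_toSet
  have h1 : ∀ q : J, ∃ i, q ∈ (⋃ j, A j) → q ∈ A i := by
    intro q
    by_cases h : q ∈ ⋃ j, A j
    · obtain ⟨j, hj⟩ := mem_iUnion.1 h
      exact ⟨j, fun _ => hj⟩
    · exact ⟨Classical.arbitrary X, fun h' => absurd h' h⟩
  choose j hj using h1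
  obtain ⟨i, hi⟩ := (hT.image j).bddAbove
  refine ⟨i, fun {ζ} hζ m hm => ?_⟩
  refine coheir_tail hK hunb hσ hσν hℓ E hE hF hJ (T := T) subset_union_right ?_
    ((lt_aleph0_of_finite ι).le.trans hσ) hζ r m ?_ hm
  · rintro q ⟨hq, hqW⟩
    rw [hW] at hqW
    rcases hqW with h | h
    · exact Or.inl (hA (hi ⟨q, hq, rfl⟩) (hj q h))
    · exact Or.inr h
  · intro x
    rw [← hs (r x)]
    exact realize_mem_cl (s (r x)) (fun d : supp (r x) => d.1) fun d =>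
      mem_iUnion.2 ⟨x, d.2⟩

/-- **Bases of size `θ`.** For a set `T` of at most `θ` points there is `U ⊆ W` of size at most `θ`,
containing `T ∩ W`, such that `EM(W)` is in free position over `EM(U)` with respect to
`EM(U ∪ T)`, for tuples of length `< μ`. -/
theorem exists_base (hK : K.IsLS ℓ) (hunb : ∀ ν, ν < κf ν ∧ K.CategoricalIn (κf ν))
    {μ θ ν : Cardinal.{u}} (hμ : ℵ₀ ≤ μ) (hμν : μ ≤ Order.succ ν) (hθ : ℵ₀ ≤ θ)
    (hℓ : ℓ ≤ ν) {t : Tpl K ℓ} {J : Type u}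
    [LinearOrder J] (E : EM t J) (hE : thr κf ν ≤ #E.N) {W F : Set J} (hJ : IsCutExt W F)
    (hWF : ∀ x ∈ W, x ∉ F → ∀ y ∈ F, x < y)
    (h1 : HasRich μ θ (W \ F)) (h2 : HasRich μ θ F) (T : Set J) (hT : #T ≤ θ) :
    ∃ U : Set J, U ⊆ W ∧ T ∩ W ⊆ U ∧ #U ≤ θ ∧ ∀ {ι ζ : Type u}, #ι < μ → #ζ < μ →
      ∀ (r : ι → E.N) (m : ζ → E.N), (∀ x, r x ∈ closure (exLang L t.Λ) (E.c '' (U ∪ T))) →
      (∀ z, m z ∈ closure (exLang L t.Λ) (E.c '' W)) →
      ∃ m' : ζ → E.N, (∀ z, m' z ∈ closure (exLang L t.Λ) (E.c '' U)) ∧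
        EqS L ν (Sum.elim m' r) (Sum.elim m r) := by
  classical
  obtain ⟨U₁, hU₁, hTU₁, hU₁θ, hr₁⟩ := h1 (T ∩ (W \ F)) inter_subset_right
    ((mk_le_mk_of_subset inter_subset_left).trans hT)
  obtain ⟨U₂, hU₂, hTU₂, hU₂θ, hr₂⟩ := h2 (T ∩ F) inter_subset_right
    ((mk_le_mk_of_subset inter_subset_left).trans hT)
  have hUW : U₁ ∪ U₂ ⊆ W := union_subset (hU₁.trans diff_subset) (hU₂.trans hJ.sub)
  have hTU : T ∩ W ⊆ U₁ ∪ U₂ := by
    rintro x ⟨hx, hxW⟩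
    by_cases hxF : x ∈ F
    · exact Or.inr (hTU₂ ⟨hx, hxF⟩)
    · exact Or.inl (hTU₁ ⟨hx, hxW, hxF⟩)
  refine ⟨U₁ ∪ U₂, hUW, hTU, (mk_union_le _ _).trans (add_le_of_le hθ hU₁θ hU₂θ), ?_⟩
  intro ι ζ hι hζ r m hr hm
  refine shift_lt hK hunb hμ hμν hℓ E hE hζ hι m r hm hr ?_
  intro V₁ hV₁ hV₁μ V₂ hV₂ hV₂μ
  have hs : ∀ (A B : Set J), #A < μ → #(A ∩ B : Set J) < μ := fun A B h =>
    (mk_le_mk_of_subset inter_subset_left).trans_lt h
  obtain ⟨g₁, a1, a2, a3⟩ := hr₁ (V₁ ∩ (W \ F)) inter_subset_right (V₂ ∩ U₁) inter_subset_right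
    (hs _ _ hV₁μ) (hs _ _ hV₂μ)
  obtain ⟨g₂, b1, b2, b3⟩ := hr₂ (V₁ ∩ F) inter_subset_right (V₂ ∩ U₂) inter_subset_right
    (hs _ _ hV₁μ) (hs _ _ hV₂μ)
  have hV₂' : ∀ x ∈ V₂, x ∈ W → x ∈ U₁ ∪ U₂ := by
    intro x hx hxW
    rcases hV₂ hx with h | h
    · exact h
    · exact hTU ⟨h, hxW⟩
  -- the classification of the points
  have hcl : ∀ x ∈ V₁ ∪ V₂, (x ∉ W) ∨
      (x ∈ W ∧ x ∉ F ∧ x ∈ V₁ ∩ (W \ F) ∪ V₂ ∩ U₁ ∧ g₁ x ∈ W \ F) ∨
      (x ∈ W ∧ x ∈ F ∧ x ∈ V₁ ∩ F ∪ V₂ ∩ U₂ ∧ g₂ x ∈ F) := by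
    intro x hx
    by_cases hxW : x ∈ W
    · right
      by_cases hxF : x ∈ F
      · right
        rcases hx with hx | hx
        · exact ⟨hxW, hxF, Or.inl ⟨hx, hxF⟩, hU₂ (b1 x ⟨hx, hxF⟩)⟩
        · rcases hV₂' x hx hxW with h | h
          · exact absurd hxF (hU₁ h).2
          · exact ⟨hxW, hxF, Or.inr ⟨hx, h⟩, by rw [b2 x ⟨hx, h⟩]; exact hxF⟩
      · left
        rcases hx with hx | hx
        · exact ⟨hxW, hxF, Or.inl ⟨hx, hxW, hxF⟩, hU₁ (a1 x ⟨hx, hxW, hxF⟩)⟩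
        · rcases hV₂' x hx hxW with h | h
          · exact ⟨hxW, hxF, Or.inr ⟨hx, h⟩, by rw [a2 x ⟨hx, h⟩]; exact hU₁ h⟩
          · exact absurd (hU₂ h) hxF
    · exact Or.inl hxW
  let h : J → J := fun x => if x ∈ W then (if x ∈ F then g₂ x else g₁ x) else x
  have hh0 : ∀ x, x ∉ W → h x = x := fun x hx => if_neg hx
  have hh1 : ∀ x, x ∈ W → x ∉ F → h x = g₁ x := fun x hx hx' => (if_pos hx).trans (if_neg hx')
  have hh2 : ∀ x, x ∈ W → x ∈ F → h x = g₂ x := fun x hx hx' => (if_pos hx).trans (if_pos hx')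
  refine ⟨h, ?_, ?_, ?_⟩
  · intro x hx
    have hxW : x ∈ W := hV₁ hx
    by_cases hxF : x ∈ F
    · rw [hh2 x hxW hxF]
      exact Or.inr (b1 x ⟨hx, hxF⟩)
    · rw [hh1 x hxW hxF]
      exact Or.inl (a1 x ⟨hx, hxW, hxF⟩)
  · intro x hx
    by_cases hxW : x ∈ W
    · rcases hV₂' x hx hxW with h' | h'
      · rw [hh1 x hxW (hU₁ h').2]
        exact a2 x ⟨hx, h'⟩
      · rw [hh2 x hxW (hU₂ h')]
        exact b2 x ⟨hx, h'⟩
    · exact hh0 x hxW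
  · intro x hx y hy hxy
    rcases hcl x hx with c1 | ⟨c1, c2, c3, c4⟩ | ⟨c1, c2, c3, c4⟩
    · rw [hh0 x c1]
      rcases hcl y hy with d1 | ⟨d1, d2, d3, d4⟩ | ⟨d1, d2, d3, d4⟩
      · rw [hh0 y d1]
        exact hxy
      · exact absurd (hJ.gt y d1 d2 x c1) hxy.not_gt
      · rw [hh2 y d1 d2]
        exact hJ.lt x c1 _ d4
    · rw [hh1 x c1 c2]
      rcases hcl y hy with d1 | ⟨d1, d2, d3, d4⟩ | ⟨d1, d2, d3, d4⟩
      · rw [hh0 y d1]
        exact hJ.gt _ c4.1 c4.2 y d1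
      · rw [hh1 y d1 d2]
        exact a3 x c3 y d3 hxy
      · rw [hh2 y d1 d2]
        exact hWF _ c4.1 c4.2 _ d4
    · rw [hh2 x c1 c2]
      rcases hcl y hy with d1 | ⟨d1, d2, d3, d4⟩ | ⟨d1, d2, d3, d4⟩
      · exact absurd (hJ.lt y d1 x c2) hxy.not_gt
      · exact absurd (hWF y d1 d2 x c2) hxy.not_gt
      · rw [hh2 y d1 d2]
        exact b3 x c3 y d3 hxy

end Vale.Agent.P307.R2.H773
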