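import Vale.Agent.P307.R2.H1.Pat

set_option linter.unusedSectionVars false

universe u v w

open Cardinal Set

namespace Vale.Agent.P307.R2.H773

open Vale.Agent.P307

/-- Long increasing functions above small sets. -/
theorem exists_mono_above {μ : Cardinal.{u}} {B : Type u} [LinearOrder B] (hμ : ℵ₀ ≤ μ)
    (hB : ∀ s : Set B, #s < μ → ∃ b, ∀ x ∈ s, x < b) (P : Set B) (hP : #P < μ)
    (Z : Type u) [LinearOrder Z] [WellFoundedLT Z] (hZ : #Z < μ) :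
    ∃ f : Z → B, StrictMono f ∧ ∀ z, ∀ p ∈ P, p < f z := by
  classical
  obtain ⟨b₀, -⟩ := hB ∅ (by simpa using aleph0_pos.trans_le hμ)
  let f : Z → B := WellFounded.fix (r := (· < ·)) wellFounded_lt (fun i rec =>
    if hx : ∃ z, (∀ a ∈ P, a < z) ∧ ∀ j : Iio i, rec j.1 j.2 < z then hx.choose else b₀)
  have hf : ∀ i, f i = if hx : ∃ z, (∀ a ∈ P, a < z) ∧ ∀ j : Iio i, f j.1 < z then hx.choose
      else b₀ := fun i => WellFounded.fix_eq _ _ i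
  have key : ∀ i, (∀ a ∈ P, a < f i) ∧ ∀ j : Iio i, f j.1 < f i := by
    intro i
    have hex : ∃ z, (∀ a ∈ P, a < z) ∧ ∀ j : Iio i, f j.1 < z := by
      obtain ⟨z, hz⟩ := hB (P ∪ Set.range fun j : Iio i => f j.1)
        ((mk_union_le _ _).trans_lt (add_lt_of_lt hμ hP
          (mk_range_le.trans_lt ((mk_set_le _).trans_lt hZ))))
      exact ⟨z, fun a ha => hz a (Or.inl ha), fun j => hz _ (Or.inr ⟨j, rfl⟩)⟩
    have h1 : f i = hex.choose := (hf i).trans (dif_pos hex)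
    rw [h1]
    exact hex.choose_spec
  exact ⟨f, fun j i hj => (key i).2 ⟨j, hj⟩, fun i => (key i).1⟩

/-- `U` is rich in `W`: every small subset of `W` can be moved into `U` over any small subset
of `U`. -/
def Rich (μ : Cardinal.{u}) {J : Type u} [LinearOrder J] (W U : Set J) : Prop :=
  ∀ V ⊆ W, ∀ V₀ ⊆ U, #V < μ → #V₀ < μ → ∃ h : J → J, (∀ x ∈ V, h x ∈ U) ∧
    (∀ x ∈ V₀, h x = x) ∧ ∀ x ∈ V ∪ V₀, ∀ y ∈ V ∪ V₀, x < y → h x < h y

/-- Every subset of size at most `θ` is contained in a rich subset of size at most `θ`. -/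
def HasRich (μ θ : Cardinal.{u}) {J : Type u} [LinearOrder J] (W : Set J) : Prop :=
  ∀ X ⊆ W, #X ≤ θ → ∃ U ⊆ W, X ⊆ U ∧ #U ≤ θ ∧ Rich μ W U

theorem HasRich.image {μ θ : Cardinal.{u}} {J J' : Type u} [LinearOrder J] [LinearOrder J']
    {W : Set J} (h : HasRich μ θ W) (f : J → J') (hf : StrictMono f) : HasRich μ θ (f '' W) := by
  classical
  intro X hX hXθ
  obtain ⟨U, hU, hXU, hUθ, hr⟩ := h (f ⁻¹' X) (fun x hx => by
    obtain ⟨y, hy, hyx⟩ := hX hx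
    rwa [← hf.injective hyx]) ((mk_preimage_of_injective _ _ hf.injective).trans hXθ)
  refine ⟨f '' U, image_mono hU, fun x hx => ?_, mk_image_le.trans hUθ, ?_⟩
  · obtain ⟨y, -, rfl⟩ := hX hx
    exact ⟨y, hXU hx, rfl⟩
  · intro V hV V₀ hV₀ hVμ hV₀μ
    obtain ⟨g, h1, h2, h3⟩ := hr (f ⁻¹' V) (fun x hx => by
        obtain ⟨y, hy, hyx⟩ := hV hx
        rwa [← hf.injective hyx]) (f ⁻¹' V₀) (fun x hx => by
        obtain ⟨y, hy, hyx⟩ := hV₀ hx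
        rwa [← hf.injective hyx])
      ((mk_preimage_of_injective _ _ hf.injective).trans_lt hVμ)
      ((mk_preimage_of_injective _ _ hf.injective).trans_lt hV₀μ)
    let F : J' → J' := fun x => if hx : ∃ y, f y = x then f (g hx.choose) else x
    have hF : ∀ y, F (f y) = f (g y) := by
      intro y
      have h4 : ∃ y', f y' = f y := ⟨y, rfl⟩
      have h5 : h4.choose = y := hf.injective h4.choose_spec
      exact (dif_pos h4).trans (by rw [h5])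
    refine ⟨F, ?_, ?_, ?_⟩
    · intro x hx
      obtain ⟨y, -, rfl⟩ := hV hx
      rw [hF]
      exact ⟨_, h1 y hx, rfl⟩
    · intro x hx
      obtain ⟨y, -, rfl⟩ := hV₀ hx
      rw [hF, h2 y hx]
    · have h6 : ∀ x ∈ V ∪ V₀, ∃ y, f y = x := by
        rintro x (hx | hx)
        · obtain ⟨y, -, rfl⟩ := hV hx
          exact ⟨y, rfl⟩
        · obtain ⟨y, -, rfl⟩ := hV₀ hx
          exact ⟨y, rfl⟩
      intro x hx y hy hxy
      obtain ⟨x', rfl⟩ := h6 x hx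
      obtain ⟨y', rfl⟩ := h6 y hy
      rw [hF, hF]
      exact hf (h3 x' hx y' hy (hf.lt_iff_lt.1 hxy))

/-- Antitone copies. -/
theorem HasRich.image_anti {μ θ : Cardinal.{u}} {J J' : Type u} [LinearOrder J] [LinearOrder J']
    {W : Set J} (h : HasRich μ θ W) (f : J → J') (hf : StrictAnti f) :
    HasRich μ θ (f '' W) := by
  classical
  intro X hX hXθ
  obtain ⟨U, hU, hXU, hUθ, hr⟩ := h (f ⁻¹' X) (fun x hx => by
    obtain ⟨y, hy, hyx⟩ := hX hx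
    rwa [← hf.injective hyx]) ((mk_preimage_of_injective _ _ hf.injective).trans hXθ)
  refine ⟨f '' U, image_mono hU, fun x hx => ?_, mk_image_le.trans hUθ, ?_⟩
  · obtain ⟨y, -, rfl⟩ := hX hx
    exact ⟨y, hXU hx, rfl⟩
  · intro V hV V₀ hV₀ hVμ hV₀μ
    obtain ⟨g, h1, h2, h3⟩ := hr (f ⁻¹' V) (fun x hx => by
        obtain ⟨y, hy, hyx⟩ := hV hx
        rwa [← hf.injective hyx]) (f ⁻¹' V₀) (fun x hx => by
        obtain ⟨y, hy, hyx⟩ := hV₀ hx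
        rwa [← hf.injective hyx])
      ((mk_preimage_of_injective _ _ hf.injective).trans_lt hVμ)
      ((mk_preimage_of_injective _ _ hf.injective).trans_lt hV₀μ)
    let F : J' → J' := fun x => if hx : ∃ y, f y = x then f (g hx.choose) else x
    have hF : ∀ y, F (f y) = f (g y) := by
      intro y
      have h4 : ∃ y', f y' = f y := ⟨y, rfl⟩
      have h5 : h4.choose = y := hf.injective h4.choose_spec
      exact (dif_pos h4).trans (by rw [h5])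
    refine ⟨F, ?_, ?_, ?_⟩
    · intro x hx
      obtain ⟨y, -, rfl⟩ := hV hx
      rw [hF]
      exact ⟨_, h1 y hx, rfl⟩
    · intro x hx
      obtain ⟨y, -, rfl⟩ := hV₀ hx
      rw [hF, h2 y hx]
    · have h6 : ∀ x ∈ V ∪ V₀, ∃ y, f y = x := by
        rintro x (hx | hx)
        · obtain ⟨y, -, rfl⟩ := hV hx
          exact ⟨y, rfl⟩
        · obtain ⟨y, -, rfl⟩ := hV₀ hx
          exact ⟨y, rfl⟩
      intro x hx y hy hxy
      obtain ⟨x', rfl⟩ := h6 x hx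
      obtain ⟨y', rfl⟩ := h6 y hy
      rw [hF, hF]
      exact hf (h3 y' hy x' hx (hf.lt_iff_gt.1 hxy))

/-- Sums. -/
theorem HasRich.union {μ θ : Cardinal.{u}} (hθ : ℵ₀ ≤ θ) {J : Type u} [LinearOrder J]
    {W₁ W₂ : Set J} (h₁ : HasRich μ θ W₁) (h₂ : HasRich μ θ W₂)
    (hlt : ∀ x ∈ W₁, ∀ y ∈ W₂, x < y) : HasRich μ θ (W₁ ∪ W₂) := by
  classical
  intro X hX hXθ
  obtain ⟨U₁, hU₁, hXU₁, hU₁θ, hr₁⟩ := h₁ (X ∩ W₁) inter_subset_right
    ((mk_le_mk_of_subset inter_subset_left).trans hXθ)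
  obtain ⟨U₂, hU₂, hXU₂, hU₂θ, hr₂⟩ := h₂ (X ∩ W₂) inter_subset_right
    ((mk_le_mk_of_subset inter_subset_left).trans hXθ)
  have hdis : ∀ x ∈ W₁, x ∉ W₂ := fun x h1 h2 => lt_irrefl _ (hlt x h1 x h2)
  refine ⟨U₁ ∪ U₂, union_subset_union hU₁ hU₂, fun x hx => ?_,
    (mk_union_le _ _).trans (add_le_of_le hθ hU₁θ hU₂θ), ?_⟩
  · rcases hX hx with h | h
    · exact Or.inl (hXU₁ ⟨hx, h⟩)
    · exact Or.inr (hXU₂ ⟨hx, h⟩)
  · intro V hV V₀ hV₀ hVμ hV₀μ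
    have hs : ∀ (A B : Set J), #A < μ → #(A ∩ B : Set J) < μ := fun A B h =>
      (mk_le_mk_of_subset inter_subset_left).trans_lt h
    obtain ⟨g₁, a1, a2, a3⟩ := hr₁ (V ∩ W₁) inter_subset_right (V₀ ∩ U₁) inter_subset_right
      (hs _ _ hVμ) (hs _ _ hV₀μ)
    obtain ⟨g₂, b1, b2, b3⟩ := hr₂ (V ∩ W₂) inter_subset_right (V₀ ∩ U₂) inter_subset_right
      (hs _ _ hVμ) (hs _ _ hV₀μ)
    let F : J → J := fun x => if x ∈ W₁ then g₁ x else g₂ x
    have hF1 : ∀ x ∈ W₁, F x = g₁ x := fun x hx => if_pos hx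
    have hF2 : ∀ x ∈ W₂, F x = g₂ x := fun x hx => if_neg fun h => hdis x h hx
    have hV₀W : ∀ x ∈ V₀, (x ∈ V₀ ∩ U₁ ∧ x ∈ W₁) ∨ (x ∈ V₀ ∩ U₂ ∧ x ∈ W₂) := by
      intro x hx
      rcases hV₀ hx with h | h
      · exact Or.inl ⟨⟨hx, h⟩, hU₁ h⟩
      · exact Or.inr ⟨⟨hx, h⟩, hU₂ h⟩
    have hcl : ∀ x ∈ V ∪ V₀, (x ∈ W₁ ∧ F x = g₁ x ∧ g₁ x ∈ W₁ ∧ x ∈ V ∩ W₁ ∪ V₀ ∩ U₁) ∨
        (x ∈ W₂ ∧ F x = g₂ x ∧ g₂ x ∈ W₂ ∧ x ∈ V ∩ W₂ ∪ V₀ ∩ U₂) := by
      rintro x (hx | hx)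
      · rcases hV hx with h | h
        · exact Or.inl ⟨h, hF1 x h, hU₁ (a1 x ⟨hx, h⟩), Or.inl ⟨hx, h⟩⟩
        · exact Or.inr ⟨h, hF2 x h, hU₂ (b1 x ⟨hx, h⟩), Or.inl ⟨hx, h⟩⟩
      · rcases hV₀W x hx with h | h
        · exact Or.inl ⟨h.2, hF1 x h.2, by rw [a2 x h.1]; exact h.2, Or.inr h.1⟩
        · exact Or.inr ⟨h.2, hF2 x h.2, by rw [b2 x h.1]; exact h.2, Or.inr h.1⟩
    refine ⟨F, ?_, ?_, ?_⟩
    · intro x hx
      rcases hV hx with h | h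
      · rw [hF1 x h]
        exact Or.inl (a1 x ⟨hx, h⟩)
      · rw [hF2 x h]
        exact Or.inr (b1 x ⟨hx, h⟩)
    · intro x hx
      rcases hV₀W x hx with h | h
      · rw [hF1 x h.2, a2 x h.1]
      · rw [hF2 x h.2, b2 x h.1]
    · intro x hx y hy hxy
      rcases hcl x hx with ⟨c1, c2, c3, c4⟩ | ⟨c1, c2, c3, c4⟩
      · rcases hcl y hy with ⟨d1, d2, d3, d4⟩ | ⟨d1, d2, d3, d4⟩
        · rw [c2, d2]
          exact a3 x c4 y d4 hxy
        · rw [c2, d2]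
          exact hlt _ c3 _ d3
      · rcases hcl y hy with ⟨d1, d2, d3, d4⟩ | ⟨d1, d2, d3, d4⟩
        · exact absurd (hlt y d1 x c1) hxy.not_gt
        · rw [c2, d2]
          exact b3 x c4 y d4 hxy

end Vale.Agent.P307.R2.H773
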