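import Vale.Agent.P307.R2.H773.Rich
import Vale.Agent.P307.R2.H806.Tail

set_option linter.unusedSectionVars false

universe u v w

open Cardinal Set

namespace Vale.Agent.P307.R2.H773

open Vale.Agent.P307

/-- A well order all of whose proper initial segments have size `< μ` has size at most `μ`. -/
theorem mk_le_of_Iio_lt {μ : Cardinal.{u}} {α : Type u} [LinearOrder α] [WellFoundedLT α]
    (h : ∀ a : α, #(Iio a) < μ) : #α ≤ μ := by
  by_contra hcon
  rw [not_le] at hcon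
  have h1 : μ.ord < Ordinal.type (α := α) (· < ·) :=
    (ord_lt_ord.2 hcon).trans_le (by
      rw [ord_le]
      exact (Ordinal.card_type (r := ((· < ·) : α → α → Prop))).ge)
  obtain ⟨a, ha⟩ := Ordinal.typein_surj (α := α) (· < ·) h1
  have h2 : #(Iio a) = μ := by
    have h3 : (Ordinal.typein (α := α) (· < ·) a).card = #(Iio a) := rfl
    rw [← h3]
    have h4 : (Ordinal.typein (α := α) (· < ·) a).card = μ.ord.card := congrArg _ ha
    rw [h4, card_ord]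
  exact absurd (h a) (by rw [h2]; exact lt_irrefl _)

theorem mk_iUnion_le_of {θ : Cardinal.{u}} (hθ : ℵ₀ ≤ θ) {ι α : Type u} (hι : #ι ≤ θ)
    (S : ι → Set α) (hS : ∀ i, #(S i) ≤ θ) : #(⋃ i, S i) ≤ θ :=
  (mk_iUnion_le _).trans ((mul_le_mul' hι (ciSup_le' hS)).trans (mul_eq_self hθ).le)

theorem hasRich_wf {μ θ : Cardinal.{u}} (hμ : μ.IsRegular) (hμθ : μ ≤ θ) {W : Type u}
    [LinearOrder W] [WellFoundedLT W] : HasRich μ θ (Set.univ : Set W) := by
  classical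
  have hμ0 : ℵ₀ ≤ μ := hμ.aleph0_le
  have hθ0 : ℵ₀ ≤ θ := hμ0.trans hμθ
  intro X _ hX
  let C : Set W := {x | ∀ y < x, ∃ z ∈ X, y < z ∧ z ≤ x}
  have hc : ∀ x : W, ∃ c ∈ C, c ≤ x ∧ ∀ z ∈ X, ¬(c < z ∧ z ≤ x) := by
    intro x
    obtain ⟨c, ⟨hc1, hc2⟩, hc3⟩ := WellFounded.has_min (wellFounded_lt (α := W))
      {y | y ≤ x ∧ ∀ z ∈ X, ¬(y < z ∧ z ≤ x)} ⟨x, le_rfl, fun z _ hz => not_lt.2 hz.2 hz.1⟩
    refine ⟨c, fun y hy => ?_, hc1, hc2⟩
    have h1 : ¬(y ≤ x ∧ ∀ z ∈ X, ¬(y < z ∧ z ≤ x)) := fun h1 => hc3 y h1 hy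
    push Not at h1
    obtain ⟨z, hz, h2, h3⟩ := h1 (hy.le.trans hc1)
    refine ⟨z, hz, h2, ?_⟩
    by_contra h4
    exact hc2 z hz ⟨not_le.1 h4, h3⟩
  choose c hcC hcx hcX using hc
  have hmax : ∀ x, ∀ z ∈ C, z ≤ x → z ≤ c x := by
    intro x z hz hzx
    by_contra h
    obtain ⟨w, hw, h1, h2⟩ := hz (c x) (not_le.1 h)
    exact hcX x w hw ⟨h1, h2.trans hzx⟩
  let U : Set W := {x | #(Ico (c x) x) < μ}
  have hXC : X ⊆ C := fun x hx y hy => ⟨x, hx, hy, le_rfl⟩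
  have hXU : X ⊆ U := by
    intro x hx
    have h1 : c x = x := le_antisymm (hcx x) (hmax x x (hXC hx) le_rfl)
    change #(Ico (c x) x) < μ
    rw [h1, Ico_self, mk_emptyCollection]
    exact aleph0_pos.trans_le hμ0
  have hC : #C ≤ θ := by
    have hn : ∀ x : W, (∃ z ∈ X, x < z) → ∃ z ∈ X, x < z ∧ ∀ w ∈ X, x < w → z ≤ w := by
      rintro x ⟨z, hz⟩
      obtain ⟨m, hm1, hm2⟩ := WellFounded.has_min (wellFounded_lt (α := W))
        {z | z ∈ X ∧ x < z} ⟨z, hz⟩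
      exact ⟨m, hm1.1, hm1.2, fun w hw hxw => not_lt.1 fun h => hm2 w ⟨hw, hxw⟩ h⟩
    choose n hn1 hn2 hn3 using hn
    let F : C → Option X := fun x => if h : ∃ z ∈ X, x.1 < z then some ⟨n x.1 h, hn1 x.1 h⟩ else none
    have hF : Function.Injective F := by
      have key : ∀ x y : C, x.1 < y.1 → F x ≠ F y := by
        intro x y hxy he
        obtain ⟨z, hz, h1, h2⟩ := y.2 x.1 hxy
        have hx : ∃ z ∈ X, x.1 < z := ⟨z, hz, h1⟩
        have hFx : F x = some ⟨n x.1 hx, hn1 x.1 hx⟩ := dif_pos hx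
        by_cases hy : ∃ z ∈ X, y.1 < z
        · have hFy : F y = some ⟨n y.1 hy, hn1 y.1 hy⟩ := dif_pos hy
          rw [hFx, hFy] at he
          have h3 : n x.1 hx = n y.1 hy := congrArg Subtype.val (Option.some.inj he)
          have h4 : n x.1 hx ≤ z := hn3 x.1 hx z hz h1
          have h5 : y.1 < n y.1 hy := hn2 y.1 hy
          exact absurd (h5.trans_le (h3.ge.trans h4)) h2.not_gt
        · have hFy : F y = none := dif_neg hy
          rw [hFx, hFy] at he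
          exact absurd he (by simp)
      intro x y he
      rcases lt_trichotomy x.1 y.1 with h | h | h
      · exact absurd he (key x y h)
      · exact Subtype.ext h
      · exact absurd he.symm (key y x h)
    refine (mk_le_of_injective hF).trans ?_
    rw [mk_option]
    exact add_le_of_le hθ0 hX (one_le_aleph0.trans hθ0)
  have hB : ∀ a : W, #{x | a ≤ x ∧ #(Ico a x) < μ} ≤ μ := by
    intro a
    refine mk_le_of_Iio_lt fun x => ?_
    refine lt_of_le_of_lt ?_ x.2.2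
    refine mk_le_of_injective (f := fun y : Iio x => (⟨y.1.1, y.1.2.1, y.2⟩ : Ico a x.1)) ?_
    intro y z h
    have h' : (y.1.1 : W) = z.1.1 := congrArg (fun q : Ico a x.1 => q.1) h
    exact Subtype.ext (Subtype.ext h')
  have hU : #U ≤ θ := by
    have h1 : U ⊆ ⋃ a : C, {x | a.1 ≤ x ∧ #(Ico a.1 x) < μ} := fun x hx =>
      mem_iUnion.2 ⟨⟨c x, hcC x⟩, hcx x, hx⟩
    exact (mk_le_mk_of_subset h1).trans (mk_iUnion_le_of hθ0 hC _ fun a => (hB a.1).trans hμθ)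
  refine ⟨U, subset_univ _, hXU, hU, ?_⟩
  intro V _ V₀ hV₀ hVμ hV₀μ
  let P : Set W := V ∪ V₀
  have hP : #P < μ := (mk_union_le _ _).trans_lt (add_lt_of_lt hμ0 hVμ hV₀μ)
  -- the block of `a`
  let B : W → Set W := fun a => {x | a ≤ x ∧ #(Ico a x) < μ}
  have hblk : ∀ x, x ∉ U → ∀ s : Set (B (c x)), #s < μ → ∃ b : B (c x), ∀ y ∈ s, y < b := by
    intro x hx s hs
    by_contra hcon
    push Not at hcon
    have h1 : B (c x) = ⋃ y : s, {z | c x ≤ z ∧ z ≤ y.1.1} := by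
      ext z
      constructor
      · intro hz
        obtain ⟨y, hy, hzy⟩ := hcon ⟨z, hz⟩
        exact mem_iUnion.2 ⟨⟨y, hy⟩, hz.1, hzy⟩
      · intro hz
        obtain ⟨y, h2, h3⟩ := mem_iUnion.1 hz
        refine ⟨h2, (mk_le_mk_of_subset fun w hw => ?_).trans_lt y.1.2.2⟩
        exact ⟨hw.1, hw.2.trans_le h3⟩
    have h2 : #(B (c x)) < μ := by
      rw [h1]
      refine (mk_iUnion_le_sum_mk).trans_lt ?_
      refine sum_lt_of_isRegular hμ hs fun y => ?_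
      have h3 : {z | c x ≤ z ∧ z ≤ y.1.1} ⊆ insert y.1.1 (Ico (c x) y.1.1) := by
        rintro z ⟨h3, h4⟩
        rcases h4.eq_or_lt with h5 | h5
        · exact Or.inl h5
        · exact Or.inr ⟨h3, h5⟩
      refine (mk_le_mk_of_subset h3).trans_lt (mk_insert_le.trans_lt ?_)
      exact add_lt_of_lt hμ0 y.1.2.2 (one_lt_aleph0.trans_le hμ0)
    obtain ⟨m, ⟨hm1, hm2⟩, hm3⟩ := WellFounded.has_min (wellFounded_lt (α := W))
      {y | c x ≤ y ∧ y ∉ B (c x)} ⟨x, hcx x, fun h => hx h.2⟩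
    refine hm2 ⟨hm1, (mk_le_mk_of_subset fun y hy => ?_).trans_lt h2⟩
    by_contra h3
    exact hm3 y ⟨hy.1, h3⟩ hy.2
  -- values in the block of a point outside `U` lie below it
  have hlow : ∀ x, x ∉ U → ∀ y ∈ B (c x), y < x := by
    intro x hx y hy
    by_contra h
    refine hx ((mk_le_mk_of_subset fun z hz => ?_).trans_lt hy.2)
    exact ⟨hz.1, hz.2.trans_le (not_lt.1 h)⟩
  have hcB : ∀ x, x ∉ U → ∀ y ∈ B (c x), c y = c x ∧ y ∈ U := by
    intro x hx y hy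
    have h1 : c y = c x := le_antisymm
      (hmax x _ (hcC y) ((hcx y).trans (hlow x hx y hy).le)) (hmax y _ (hcC x) hy.1)
    refine ⟨h1, ?_⟩
    change #(Ico (c y) y) < μ
    rw [h1]
    exact hy.2
  let Z : W → Set W := fun a => {x | x ∈ P ∧ c x = a ∧ x ∉ U}
  have hZ : ∀ a, ∃ f : W → W, (∀ z ∈ Z a, f z ∈ B a) ∧ (∀ z ∈ Z a, ∀ z' ∈ Z a, z < z' → f z < f z') ∧
      ∀ z ∈ Z a, ∀ p ∈ P, p ∈ B a → p < f z := by
    intro a
    rcases (Z a).eq_empty_or_nonempty with hemp | ⟨x, hx1, rfl, hx3⟩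
    · rw [hemp]
      exact ⟨id, by simp, by simp, by simp⟩
    · obtain ⟨f, hf1, hf2⟩ := exists_mono_above hμ0 (hblk x hx3) {p : B (c x) | p.1 ∈ P}
        ((mk_preimage_of_injective (Subtype.val : B (c x) → W) P Subtype.val_injective).trans_lt
          hP) (Z (c x)) ((mk_le_mk_of_subset fun y hy => hy.1).trans_lt hP)
      refine ⟨fun z => if hz : z ∈ Z (c x) then (f ⟨z, hz⟩).1 else z, ?_, ?_, ?_⟩
      · intro z hz
        dsimp only
        rw [dif_pos hz]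
        exact (f ⟨z, hz⟩).2
      · intro z hz z' hz' hzz
        dsimp only
        rw [dif_pos hz, dif_pos hz']
        exact hf1 (a := ⟨z, hz⟩) (b := ⟨z', hz'⟩) hzz
      · intro z hz p hp hpB
        dsimp only
        rw [dif_pos hz]
        exact hf2 ⟨z, hz⟩ ⟨p, hpB⟩ hp
  choose f hf0 hf1 hf2 using hZ
  let h : W → W := fun x => if x ∈ P ∧ x ∉ U then f (c x) x else x
  have hh1 : ∀ x, x ∈ P → x ∉ U → h x = f (c x) x := fun x hx hx' => if_pos ⟨hx, hx'⟩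
  have hh2 : ∀ x ∈ U, h x = x := fun x hx => if_neg fun h => h.2 hx
  have hlt : ∀ x y, c x < c y → x < c y := by
    intro x y hxy
    by_contra h
    exact absurd (hmax x _ (hcC y) (not_lt.1 h)) (not_le.2 hxy)
  have hcmono : ∀ x y, x ≤ y → c x ≤ c y := fun x y hxy => hmax y _ (hcC x) ((hcx x).trans hxy)
  refine ⟨h, ?_, fun x hx => hh2 x (hV₀ hx), ?_⟩
  · intro x hx
    by_cases hxU : x ∈ U
    · rw [hh2 x hxU]
      exact hxU
    · rw [hh1 x (Or.inl hx) hxU]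
      exact (hcB x hxU _ (hf0 (c x) x ⟨Or.inl hx, rfl, hxU⟩)).2
  · intro x hx y hy hxy
    by_cases hxU : x ∈ U
    · rw [hh2 x hxU]
      by_cases hyU : y ∈ U
      · rw [hh2 y hyU]
        exact hxy
      · rw [hh1 y hy hyU]
        rcases (hcmono x y hxy.le).eq_or_lt with h1 | h1
        · have h2 : x ∈ B (c y) := by
            refine ⟨h1 ▸ hcx x, ?_⟩
            rw [← h1]
            exact hxU
          exact hf2 (c y) y ⟨hy, rfl, hyU⟩ x hx h2
        · exact (hlt x y h1).trans_le (hf0 (c y) y ⟨hy, rfl, hyU⟩).1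
    · have hxlow : h x < x := by
        rw [hh1 x hx hxU]
        exact hlow x hxU _ (hf0 (c x) x ⟨hx, rfl, hxU⟩)
      by_cases hyU : y ∈ U
      · rw [hh2 y hyU]
        exact hxlow.trans hxy
      · rcases (hcmono x y hxy.le).eq_or_lt with h1 | h1
        · rw [hh1 x hx hxU, hh1 y hy hyU, h1]
          exact hf1 (c y) x ⟨hx, h1, hxU⟩ y ⟨hy, rfl, hyU⟩ hxy
        · rw [hh1 y hy hyU]
          exact hxlow.trans ((hlt x y h1).trans_le (hf0 (c y) y ⟨hy, rfl, hyU⟩).1)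

theorem hasRich_dual {μ θ : Cardinal.{u}} (hμ : μ.IsRegular) (hμθ : μ ≤ θ) {W : Type u}
    [LinearOrder W] [WellFoundedLT W] : HasRich μ θ (Set.univ : Set Wᵒᵈ) := by
  have h1 := (hasRich_wf hμ hμθ (W := W)).image_anti (OrderDual.toDual : W → Wᵒᵈ)
    (fun a b hab => hab)
  have h2 : (OrderDual.toDual : W → Wᵒᵈ) '' Set.univ = Set.univ := by
    ext x
    exact ⟨fun _ => mem_univ _, fun _ => ⟨OrderDual.ofDual x, mem_univ _, rfl⟩⟩
  rwa [h2] at h1

/-- Well-founded subsets. -/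
theorem hasRich_isWF {μ θ : Cardinal.{u}} (hμ : μ.IsRegular) (hμθ : μ ≤ θ) {J : Type u}
    [LinearOrder J] {W : Set J} (hW : W.IsWF) : HasRich μ θ W := by
  have : WellFoundedLT W := ⟨hW⟩
  have h1 := (hasRich_wf hμ hμθ (W := W)).image (Subtype.val : W → J) (fun a b hab => hab)
  rwa [image_univ, Subtype.range_coe] at h1

theorem hasRich_lex {μ θ : Cardinal.{u}} (hθ : ℵ₀ ≤ θ) {A B : Type u} [LinearOrder A]
    [LinearOrder B] (hA : HasRich μ θ (Set.univ : Set A)) (hB : HasRich μ θ (Set.univ : Set B)) :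
    HasRich μ θ (Set.univ : Set (A ×ₗ B)) := by
  classical
  intro X _ hX
  let p1 : A ×ₗ B → A := fun p => (ofLex p).1
  let p2 : A ×ₗ B → B := fun p => (ofLex p).2
  obtain ⟨UA, -, hXA, hUAθ, hrA⟩ := hA (p1 '' X) (subset_univ _) (mk_image_le.trans hX)
  have hinj : ∀ a : A, Function.Injective (fun b : B => (toLex (a, b) : A ×ₗ B)) := by
    intro a e e' h
    have h1 : (a, e) = (a, e') := toLex.injective h
    exact (Prod.ext_iff.1 h1).2
  have hex : ∀ a : A, ∃ U : Set B, {b | (toLex (a, b) : A ×ₗ B) ∈ X} ⊆ U ∧ #U ≤ θ ∧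
      Rich μ Set.univ U := by
    intro a
    obtain ⟨U, -, h1, h2, h3⟩ := hB {b | (toLex (a, b) : A ×ₗ B) ∈ X} (subset_univ _)
      ((mk_preimage_of_injective _ _ (hinj a)).trans hX)
    exact ⟨U, h1, h2, h3⟩
  choose UB hXB hUBθ hrB using hex
  let U : Set (A ×ₗ B) := {p | p1 p ∈ UA ∧ p2 p ∈ UB (p1 p)}
  have hpp : ∀ p : A ×ₗ B, toLex (p1 p, p2 p) = p := fun p => rfl
  refine ⟨U, subset_univ _, ?_, ?_, ?_⟩
  · intro p hp
    exact ⟨hXA ⟨p, hp, rfl⟩, hXB (p1 p) (show toLex (p1 p, p2 p) ∈ X from hp)⟩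
  · have h1 : U ⊆ ⋃ a : UA, (fun b : B => (toLex (a.1, b) : A ×ₗ B)) '' UB a.1 := by
      rintro p ⟨h1, h2⟩
      exact mem_iUnion.2 ⟨⟨p1 p, h1⟩, p2 p, h2, rfl⟩
    exact (mk_le_mk_of_subset h1).trans
      (mk_iUnion_le_of hθ hUAθ _ fun a => mk_image_le.trans (hUBθ a.1))
  · intro V _ V₀ hV₀ hVμ hV₀μ
    obtain ⟨hA', a1, a2, a3⟩ := hrA (p1 '' V) (subset_univ _) (p1 '' V₀) (by
      rintro _ ⟨p, hp, rfl⟩
      exact (hV₀ hp).1) (mk_image_le.trans_lt hVμ) (mk_image_le.trans_lt hV₀μ)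
    have hex2 : ∀ a : A, ∃ g : B → B, (∀ x ∈ {b | (toLex (a, b) : A ×ₗ B) ∈ V}, g x ∈ UB (hA' a)) ∧
        (∀ x ∈ {b | (toLex (hA' a, b) : A ×ₗ B) ∈ V₀}, g x = x) ∧
        ∀ x ∈ {b | (toLex (a, b) : A ×ₗ B) ∈ V} ∪ {b | (toLex (hA' a, b) : A ×ₗ B) ∈ V₀},
        ∀ y ∈ {b | (toLex (a, b) : A ×ₗ B) ∈ V} ∪ {b | (toLex (hA' a, b) : A ×ₗ B) ∈ V₀},
          x < y → g x < g y := by
      intro a
      exact hrB (hA' a) _ (subset_univ _) _ (fun b hb => (hV₀ hb).2)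
        ((mk_preimage_of_injective _ _ (hinj a)).trans_lt hVμ)
        ((mk_preimage_of_injective _ _ (hinj (hA' a))).trans_lt hV₀μ)
    choose g g1 g2 g3 using hex2
    refine ⟨fun p => toLex (hA' (p1 p), g (p1 p) (p2 p)), ?_, ?_, ?_⟩
    · intro p hp
      exact ⟨a1 _ ⟨p, hp, rfl⟩, g1 (p1 p) (p2 p) (show toLex (p1 p, p2 p) ∈ V from hp)⟩
    · intro p hp
      have h1 : hA' (p1 p) = p1 p := a2 _ ⟨p, hp, rfl⟩
      have h2 : g (p1 p) (p2 p) = p2 p := g2 (p1 p) (p2 p) (by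
        rw [h1]
        exact hp)
      change toLex (hA' (p1 p), g (p1 p) (p2 p)) = p
      rw [h1, h2]
      rfl
    · intro p hp q hq hpq
      rw [Prod.Lex.toLex_lt_toLex]
      have hm : ∀ p ∈ V ∪ V₀, p1 p ∈ p1 '' V ∪ p1 '' V₀ := by
        rintro p (h | h)
        · exact Or.inl ⟨p, h, rfl⟩
        · exact Or.inr ⟨p, h, rfl⟩
      rw [Prod.Lex.lt_iff] at hpq
      rcases hpq with h | ⟨h, h'⟩
      · exact Or.inl (a3 _ (hm p hp) _ (hm q hq) h)
      · right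
        have h1 : p1 p = p1 q := h
        refine ⟨congrArg hA' h1, ?_⟩
        have hm2 : ∀ r ∈ V ∪ V₀, p1 r = p1 p → p2 r ∈ {b | (toLex (p1 p, b) : A ×ₗ B) ∈ V} ∪
            {b | (toLex (hA' (p1 p), b) : A ×ₗ B) ∈ V₀} := by
          rintro r (hr | hr) h2
          · left
            change toLex (p1 p, p2 r) ∈ V
            rw [← h2]
            exact hr
          · right
            change toLex (hA' (p1 p), p2 r) ∈ V₀
            rw [← h2, a2 _ ⟨r, hr, rfl⟩]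
            exact hr
        have h4 := g3 (p1 p) (p2 p) (hm2 p hp rfl) (p2 q) (hm2 q hq h1.symm) h'
        change g (p1 p) (p2 p) < g (p1 q) (p2 q)
        rw [← h1]
        exact h4

theorem hasRich_tailTy {μ θ σ : Cardinal.{u}} (hμ : μ.IsRegular) (hμθ : μ ≤ θ) :
    HasRich μ θ (Set.univ : Set (H806.TailTy σ)) :=
  hasRich_lex (hμ.aleph0_le.trans hμθ) (hasRich_dual hμ hμθ) (hasRich_wf hμ hμθ)

end Vale.Agent.P307.R2.H773
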